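import Vale.Agent.P273.H95.Wall

/-!
The interior half of `Ext`: from the value `FS` of the form on the standard families (distinct
marks) and its local extension property to the fields `G`, `reg`, `chg`.
-/

noncomputable section

namespace Vale.Agent.P273.H894

open Set Filter H95
open Vale.Agent.P273.H681 (C6)
open scoped Topology ContDiff

/-- All marks are distinct. -/
def Dist (S : L → Bool) (z v : L → ℂ) : Prop :=
  ∀ i j : L, i ≠ j → ¬ Same (S i) (z i) (v i) (S j) (z j) (v j)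

/-- `g` is a smooth closed extension of `FS` near `(e,v)`. -/
def IsLoc (FS : (L → Bool) → E → (L → ℂ) → Alt 16 E) (S : L → Bool) (e : E) (v : L → ℂ)
    (g : E → Alt 16 E) : Prop :=
  ∃ (W : Set E) (r : ℝ), IsOpen W ∧ e ∈ W ∧ 0 < r ∧ ContDiffOn ℝ ∞ g W ∧
    (∀ p ∈ W, extDeriv g p = 0) ∧
    ∀ p ∈ W, ∀ v' : L → ℂ, (∀ j, v' j ^ 2 = pol (S j) p.1 (p.2 j)) →
      (∀ j, ‖v' j - v j‖ < r) → Dist S p.2 v' → FS S p v' = g p

/-! ### Density of distinct marks -/

theorem csq_sq (z : ℂ) : csq z ^ 2 = z := by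
  rw [csq, ← Complex.cpow_nat_mul]; norm_num

theorem csq_one : csq 1 = 1 := by simp [csq]

theorem continuousAt_csq_one : ContinuousAt csq 1 := by
  unfold csq
  exact continuousAt_cpow_const (by simp [Complex.slitPlane])

theorem continuous_pol (s : Bool) : Continuous fun p : C6 × ℂ => pol s p.1 p.2 := by
  cases s
  · simp only [pol, H95.sx, Bool.false_eq_true, if_false]; fun_prop
  · simp only [pol, H95.sw, if_true]; fun_prop

theorem continuous_pol' (s : Bool) (a : C6) : Continuous fun z : ℂ => pol s a z := by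
  cases s
  · simp only [pol, H95.sx, Bool.false_eq_true, if_false]; fun_prop
  · simp only [pol, H95.sw, if_true]; fun_prop

theorem ev_lin (a b : ℂ) (hb : b ≠ 0) : ∀ᶠ t in 𝓝[≠] (0 : ℂ), a + t * b ≠ 0 := by
  have hf : {t : ℂ | a + t * b = 0}.Finite := by
    refine Set.Finite.subset (Set.finite_singleton (-a / b)) ?_
    intro t ht
    have ht' : a + t * b = 0 := ht
    rw [Set.mem_singleton_iff, eq_div_iff hb]
    linear_combination ht'
  have := nhdsNE_le_cofinite (0 : ℂ) hf.compl_mem_cofinite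
  filter_upwards [this] with t ht
  exact ht

theorem ev_quad (a b c d : ℂ) (hc : c ≠ 0) (hd : d ≠ 0) :
    ∀ᶠ t in 𝓝[≠] (0 : ℂ), (a + t * c) * (b + t * d) ≠ 1 := by
  obtain ⟨P, hP⟩ : ∃ P : Polynomial ℂ, P = Polynomial.C (c * d) * Polynomial.X ^ 2 +
        Polynomial.C (a * d + b * c) * Polynomial.X + Polynomial.C (a * b - 1) := ⟨_, rfl⟩
  have hP0 : P ≠ 0 := by
    intro h
    have h2 : P.coeff 2 = 0 := by rw [h]; exact Polynomial.coeff_zero _
    have h3 : P.coeff 2 = c * d := by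
      rw [hP, Polynomial.coeff_add, Polynomial.coeff_add, Polynomial.coeff_C_mul_X_pow,
        Polynomial.coeff_C_mul, Polynomial.coeff_X, Polynomial.coeff_C]
      norm_num
    rw [h3] at h2
    exact (mul_ne_zero hc hd) h2
  have hf := Polynomial.finite_setOfPred_isRoot hP0
  have := nhdsNE_le_cofinite (0 : ℂ) hf.compl_mem_cofinite
  filter_upwards [this] with t ht h1
  apply ht
  change Polynomial.eval t P = 0
  rw [hP]
  simp only [Polynomial.eval_add, Polynomial.eval_mul, Polynomial.eval_pow, Polynomial.eval_C,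
    Polynomial.eval_X]
  linear_combination h1

/-- The direction in which the marks are moved. -/
def dir (j : L) : ℂ := ((Fintype.equivFin L j : ℕ) : ℂ) + 1

theorem dir_ne (j : L) : dir j ≠ 0 := by
  unfold dir; exact Nat.cast_add_one_ne_zero _

theorem dir_sub_ne {i j : L} (h : i ≠ j) : dir i - dir j ≠ 0 := by
  unfold dir
  intro h1
  apply h
  have h2 : ((Fintype.equivFin L i : ℕ) : ℂ) = ((Fintype.equivFin L j : ℕ) : ℂ) := by
    linear_combination h1
  exact (Fintype.equivFin L).injective (Fin.ext (Nat.cast_injective h2))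

/-- The moved marks. -/
def mv (z : L → ℂ) (t : ℂ) (j : L) : ℂ := z j + t * dir j

/-- The sheets over the moved marks. -/
def mw (S : L → Bool) (a : C6) (z v : L → ℂ) (t : ℂ) (j : L) : ℂ :=
  v j * csq (pol (S j) a (mv z t j) / pol (S j) a (z j))

theorem pol_ne {S : L → Bool} {a : C6} {z v : L → ℂ} (h : OnC S a z v) (j : L) :
    pol (S j) a (z j) ≠ 0 := by
  rw [← (h j).1]; exact pow_ne_zero 2 (h j).2

theorem mw_sq {S : L → Bool} {a : C6} {z v : L → ℂ} (h : OnC S a z v) (t : ℂ) (j : L) :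
    mw S a z v t j ^ 2 = pol (S j) a (mv z t j) := by
  rw [mw, mul_pow, csq_sq, (h j).1, mul_div_cancel₀ _ (pol_ne h j)]

theorem tendsto_mw {S : L → Bool} {a : C6} {z v : L → ℂ} (h : OnC S a z v) (j : L) :
    Tendsto (fun t => mw S a z v t j) (𝓝 0) (𝓝 (v j)) := by
  have h2 : Continuous fun t : ℂ => z j + t * dir j :=
    continuous_const.add (continuous_id.mul continuous_const)
  have h1 : Continuous fun t : ℂ => pol (S j) a (z j + t * dir j) :=
    (continuous_pol' (S j) a).comp h2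
  have h3 : Tendsto (fun t : ℂ => pol (S j) a (mv z t j) / pol (S j) a (z j)) (𝓝 0) (𝓝 1) := by
    have h4 : Tendsto (fun t : ℂ => pol (S j) a (z j + t * dir j)) (𝓝 0)
        (𝓝 (pol (S j) a (z j + 0 * dir j))) := h1.tendsto 0
    rw [zero_mul, add_zero] at h4
    have h5 := h4.div_const (pol (S j) a (z j))
    rw [div_self (pol_ne h j)] at h5
    exact h5
  have h6 : Tendsto csq (𝓝 1) (𝓝 1) := by
    have := continuousAt_csq_one.tendsto
    rwa [csq_one] at this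
  have h7 := (h6.comp h3).const_mul (v j)
  rw [mul_one] at h7
  exact h7

theorem ev_dist {S : L → Bool} (z : L → ℂ) (w : ℂ → L → ℂ) :
    ∀ᶠ t in 𝓝[≠] (0 : ℂ), Dist S (mv z t) (w t) := by
  have h1 : ∀ i j : L, ∀ᶠ t in 𝓝[≠] (0 : ℂ), i ≠ j →
      ¬ Same (S i) (mv z t i) (w t i) (S j) (mv z t j) (w t j) := by
    intro i j
    by_cases hij : i = j
    · exact Eventually.of_forall fun t h => absurd hij h
    · filter_upwards [ev_lin (z i - z j) _ (dir_sub_ne hij),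
        ev_quad (z i) (z j) _ _ (dir_ne i) (dir_ne j)] with t h1 h2 _ h3
      unfold Same mv at h3
      split_ifs at h3
      · apply h1
        have h4 := h3.1
        linear_combination h4
      · exact h2 h3.1
  exact eventually_all.2 fun i => eventually_all.2 fun j => h1 i j

/-- Distinct marks are dense. -/
theorem dense_dist {S : L → Bool} {e : E} {v : L → ℂ} (h : OnC S e.1 e.2 v) {N : Set E}
    (hN : N ∈ 𝓝 e) {r : ℝ} (hr : 0 < r) :
    ∃ p ∈ N, ∃ v' : L → ℂ, (∀ j, v' j ^ 2 = pol (S j) p.1 (p.2 j)) ∧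
      (∀ j, ‖v' j - v j‖ < r) ∧ Dist S p.2 v' := by
  have hγ : Tendsto (fun t : ℂ => ((e.1, mv e.2 t) : E)) (𝓝 0) (𝓝 e) := by
    refine Tendsto.prodMk_nhds tendsto_const_nhds ?_
    rw [tendsto_pi_nhds]
    intro j
    have h1 : Continuous fun t : ℂ => e.2 j + t * dir j :=
      continuous_const.add (continuous_id.mul continuous_const)
    have h2 := h1.tendsto 0
    rwa [zero_mul, add_zero] at h2
  have hwc : ∀ᶠ t in 𝓝 (0 : ℂ), ∀ j, ‖mw S e.1 e.2 v t j - v j‖ < r := by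
    refine eventually_all.2 fun j => ?_
    filter_upwards [(tendsto_mw h j) (Metric.ball_mem_nhds _ hr)] with t ht
    rw [← dist_eq_norm]; exact ht
  have h8 : ∀ᶠ t in 𝓝[≠] (0 : ℂ), ((e.1, mv e.2 t) : E) ∈ N := nhdsWithin_le_nhds (hγ hN)
  have h9 : ∀ᶠ t in 𝓝[≠] (0 : ℂ), ∀ j, ‖mw S e.1 e.2 v t j - v j‖ < r := nhdsWithin_le_nhds hwc
  obtain ⟨t, h5, h6, h7⟩ := ((ev_dist (S := S) e.2 (mw S e.1 e.2 v)).and (h8.and h9)).exists
  exact ⟨(e.1, mv e.2 t), h6, mw S e.1 e.2 v t, fun j => mw_sq h t j, h7, h5⟩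

/-! ### The form `extG` -/

variable {FS : (L → Bool) → E → (L → ℂ) → Alt 16 E}

theorem loc_unique {S : L → Bool} {e : E} {v : L → ℂ} {g g' : E → Alt 16 E}
    (h : OnC S e.1 e.2 v) (h1 : IsLoc FS S e v g) (h2 : IsLoc FS S e v g') : g e = g' e := by
  obtain ⟨W, r, hW, he, hr, hg, -, h3⟩ := h1
  obtain ⟨W', r', hW', he', hr', hg', -, h4⟩ := h2
  have hfr : ∃ᶠ p in 𝓝 e, g p = g' p := by
    rw [Filter.frequently_iff]
    intro U hU
    obtain ⟨p, hp, v', h5, h6, h7⟩ := dense_dist h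
      (Filter.inter_mem hU (Filter.inter_mem (hW.mem_nhds he) (hW'.mem_nhds he')))
      (lt_min hr hr')
    refine ⟨p, hp.1, ?_⟩
    rw [← h3 p hp.2.1 v' h5 (fun j => (h6 j).trans_le (min_le_left _ _)) h7,
      h4 p hp.2.2 v' h5 (fun j => (h6 j).trans_le (min_le_right _ _)) h7]
  exact tendsto_nhds_unique_of_frequently_eq
    ((hg.continuousOn e he).continuousAt (hW.mem_nhds he))
    ((hg'.continuousOn e he').continuousAt (hW'.mem_nhds he')) hfr

open Classical in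
/-- The extended form. -/
def extG (FS : (L → Bool) → E → (L → ℂ) → Alt 16 E) (S : L → Bool) (e : E) (v : L → ℂ) :
    Alt 16 E :=
  if h : ∃ g, IsLoc FS S e v g then h.choose e else 0

theorem extG_eq {S : L → Bool} {e : E} {v : L → ℂ} {g : E → Alt 16 E}
    (h : OnC S e.1 e.2 v) (h1 : IsLoc FS S e v g) : extG FS S e v = g e := by
  have H : ∃ g, IsLoc FS S e v g := ⟨g, h1⟩
  rw [extG, dif_pos H]
  exact loc_unique h H.choose_spec h1

/-- An extension near a point is an extension near the points nearby. -/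
theorem IsLoc.near {S : L → Bool} {e : E} {v : L → ℂ} {g : E → Alt 16 E}
    (h1 : IsLoc FS S e v g) : ∃ (W : Set E) (r : ℝ), IsOpen W ∧ e ∈ W ∧ 0 < r ∧
      ContDiffOn ℝ ∞ g W ∧ (∀ p ∈ W, extDeriv g p = 0) ∧
      ∀ p ∈ W, ∀ v' : L → ℂ, (∀ j, ‖v' j - v j‖ < r) → IsLoc FS S p v' g := by
  obtain ⟨W, r, hW, he, hr, hg, hc, h3⟩ := h1
  refine ⟨W, r / 2, hW, he, by linarith, hg, hc, ?_⟩
  intro p hp v' hv'
  refine ⟨W, r / 2, hW, hp, by linarith, hg, hc, ?_⟩
  intro p' hp' v'' h4 h5 h6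
  refine h3 p' hp' v'' h4 (fun j => ?_) h6
  calc ‖v'' j - v j‖ = ‖(v'' j - v' j) + (v' j - v j)‖ := by congr 1; ring
    _ ≤ ‖v'' j - v' j‖ + ‖v' j - v j‖ := norm_add_le _ _
    _ < r := by linarith [h5 j, hv' j]

/-- `extG` is equal to `FS` at distinct marks, where `FS` has an extension. -/
theorem extG_dist {S : L → Bool} {e : E} {v : L → ℂ} {g : E → Alt 16 E}
    (h : OnC S e.1 e.2 v) (h1 : IsLoc FS S e v g) (hd : Dist S e.2 v) :
    extG FS S e v = FS S e v := by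
  rw [extG_eq h h1]
  obtain ⟨W, r, hW, he, hr, hg, hc, h3⟩ := h1
  exact (h3 e he v (fun j => (h j).1) (fun j => by simpa using hr) hd).symm

/-- The field `reg`. -/
theorem extG_near {S : L → Bool} {e : E} {v : L → ℂ} {g : E → Alt 16 E}
    (h : OnC S e.1 e.2 v) (h1 : IsLoc FS S e v g) :
    Near id S (extG FS S) (fun g p => extDeriv g p = 0) e v := by
  obtain ⟨W, r, hW, he, hr, hg, hc, h3⟩ := h1.near
  obtain ⟨ρ, hρ, hρv⟩ : ∃ ρ : ℝ, 0 < ρ ∧ ∀ j, ρ ≤ ‖v j‖ := by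
    refine ⟨Finset.univ.inf' Finset.univ_nonempty fun j => ‖v j‖, ?_, fun j =>
      Finset.inf'_le _ (Finset.mem_univ j)⟩
    rw [Finset.lt_inf'_iff]
    exact fun j _ => norm_pos_iff.2 (h j).2
  refine ⟨W, g, min r ρ, hW, he, lt_min hr hρ, hg, hc, ?_⟩
  intro p hp v' h4 h5
  refine extG_eq (fun j => ⟨h4 j, fun h0 => ?_⟩) (h3 p hp v' fun j =>
    (h5 j).trans_le (min_le_left _ _))
  have h6 := (h5 j).trans_le (min_le_right _ _)
  rw [h0, zero_sub, norm_neg] at h6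
  exact absurd h6 (not_lt.2 (hρv j))

/-! ### Change of charts -/

theorem pol_inv {s s' : Bool} (h : s ≠ s') (a : C6) {z : ℂ} (hz : z ≠ 0) :
    pol s' a z⁻¹ = pol s a z * (z⁻¹) ^ 6 := by
  have hz6 : z ^ 6 * (z⁻¹) ^ 6 = 1 := by rw [← mul_pow, mul_inv_cancel₀ hz, one_pow]
  have hzi : ∀ n : ℕ, z ^ n * (z⁻¹) ^ n = 1 := fun n => by
    rw [← mul_pow, mul_inv_cancel₀ hz, one_pow]
  have h6 : ∀ i : Fin 6, (z⁻¹) ^ 6 = (z⁻¹) ^ (i : ℕ) * (z⁻¹) ^ (6 - (i : ℕ)) := by
    intro i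
    rw [← pow_add]; congr 1; omega
  have key1 : H95.sw a z⁻¹ = H95.sx a z * (z⁻¹) ^ 6 := by
    rw [H95.sw, H95.sx, add_mul, hz6, Finset.sum_mul]
    congr 1
    refine Finset.sum_congr rfl fun i _ => ?_
    rw [h6 i]
    linear_combination (-(a i * (z⁻¹) ^ (6 - (i : ℕ)))) * hzi i
  have key2 : H95.sx a z⁻¹ = H95.sw a z * (z⁻¹) ^ 6 := by
    rw [H95.sw, H95.sx, add_mul, one_mul, Finset.sum_mul]
    congr 1
    refine Finset.sum_congr rfl fun i _ => ?_
    rw [h6 i]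
    linear_combination (-(a i * (z⁻¹) ^ (i : ℕ))) * hzi (6 - (i : ℕ))
  cases s <;> cases s' <;> simp_all [pol]

/-- `Same` in other charts. -/
theorem same_flip {s t s' t' : Bool} {z v w u : ℂ} (hz : s ≠ s' → z ≠ 0) (hw : t ≠ t' → w ≠ 0) :
    Same s' (if s = s' then z else z⁻¹) (if s = s' then v else v * (z⁻¹) ^ 3)
      t' (if t = t' then w else w⁻¹) (if t = t' then u else u * (w⁻¹) ^ 3) ↔
      Same s z v t w u := by
  have a1 : ∀ {z w v u : ℂ}, z ≠ 0 → w ≠ 0 →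
      (z⁻¹ = w⁻¹ ∧ v * (z⁻¹) ^ 3 = u * (w⁻¹) ^ 3 ↔ z = w ∧ v = u) := by
    intro z w v u hz hw
    constructor
    · rintro ⟨h1, h2⟩
      have h3 : z = w := inv_injective h1
      subst h3
      exact ⟨rfl, mul_right_cancel₀ (pow_ne_zero 3 (inv_ne_zero hz)) h2⟩
    · rintro ⟨rfl, rfl⟩; exact ⟨rfl, rfl⟩
  have a2 : ∀ {z w v u : ℂ}, z ≠ 0 →
      (z⁻¹ * w = 1 ∧ u = v * (z⁻¹) ^ 3 * w ^ 3 ↔ z = w ∧ v = u) := by
    intro z w v u hz
    constructor
    · rintro ⟨h1, h2⟩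
      have h3 : w = z := by field_simp at h1; exact h1
      subst h3
      refine ⟨rfl, ?_⟩
      rw [h2]; field_simp
    · rintro ⟨rfl, rfl⟩
      refine ⟨inv_mul_cancel₀ hz, ?_⟩
      field_simp
  have a3 : ∀ {z w v u : ℂ}, w ≠ 0 →
      (z * w⁻¹ = 1 ∧ u * (w⁻¹) ^ 3 = v * (w⁻¹) ^ 3 ↔ z = w ∧ v = u) := by
    intro z w v u hw
    constructor
    · rintro ⟨h1, h2⟩
      have h3 : z = w := by field_simp at h1; exact h1
      exact ⟨h3, (mul_right_cancel₀ (pow_ne_zero 3 (inv_ne_zero hw)) h2).symm⟩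
    · rintro ⟨rfl, rfl⟩
      exact ⟨mul_inv_cancel₀ hw, rfl⟩
  have b1 : ∀ {z w v u : ℂ}, z ≠ 0 → w ≠ 0 →
      (z⁻¹ * w⁻¹ = 1 ∧ u * (w⁻¹) ^ 3 = v * (z⁻¹) ^ 3 * (w⁻¹) ^ 3 ↔ z * w = 1 ∧ u = v * w ^ 3) := by
    intro z w v u hz hw
    constructor
    · rintro ⟨h1, h2⟩
      have h3 : z * w = 1 := by
        have h5 : z * w = (z⁻¹ * w⁻¹)⁻¹ := by rw [mul_inv, inv_inv, inv_inv]
        rw [h5, h1, inv_one]
      refine ⟨h3, ?_⟩
      have h4 : z⁻¹ = w := inv_eq_of_mul_eq_one_right h3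
      rw [h4] at h2
      exact mul_right_cancel₀ (pow_ne_zero 3 (inv_ne_zero hw)) h2
    · rintro ⟨h1, h2⟩
      have h4 : z⁻¹ = w := inv_eq_of_mul_eq_one_right h1
      refine ⟨by rw [h4, mul_inv_cancel₀ hw], ?_⟩
      rw [h4, h2]
  have b2 : ∀ {z w v u : ℂ}, z ≠ 0 →
      (z⁻¹ = w ∧ v * (z⁻¹) ^ 3 = u ↔ z * w = 1 ∧ u = v * w ^ 3) := by
    intro z w v u hz
    constructor
    · rintro ⟨h1, h2⟩
      rw [← h1]
      exact ⟨mul_inv_cancel₀ hz, h2.symm⟩
    · rintro ⟨h1, h2⟩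
      have h4 : z⁻¹ = w := inv_eq_of_mul_eq_one_right h1
      exact ⟨h4, by rw [h4, h2]⟩
  have b3 : ∀ {z w v u : ℂ}, w ≠ 0 →
      (z = w⁻¹ ∧ v = u * (w⁻¹) ^ 3 ↔ z * w = 1 ∧ u = v * w ^ 3) := by
    intro z w v u hw
    constructor
    · rintro ⟨h1, h2⟩
      rw [h1, h2]
      refine ⟨inv_mul_cancel₀ hw, ?_⟩
      field_simp
    · rintro ⟨h1, h2⟩
      refine ⟨eq_inv_of_mul_eq_one_left h1, ?_⟩
      rw [h2]; field_simp
  cases s <;> cases t <;> cases s' <;> cases t' <;> simp only [Same, Bool.false_eq_true,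
    Bool.true_eq_false, if_true, if_false, ne_eq, not_true_eq_false, not_false_eq_true,
    forall_true_left] at hz hw ⊢ <;>
    first
      | exact Iff.rfl
      | exact a1 hz hw
      | exact a2 hz
      | exact a3 hw
      | exact b1 hz hw
      | exact b2 hz
      | exact b3 hw

theorem dist_flip {S S' : L → Bool} {e : E} {v : L → ℂ} (h0 : ∀ j, S j ≠ S' j → e.2 j ≠ 0) :
    Dist S' (H95.flip S S' e).2 (flipv S S' e.2 v) ↔ Dist S e.2 v := by
  unfold Dist
  refine forall_congr' fun i => forall_congr' fun j => forall_congr' fun _ => not_congr ?_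
  exact same_flip (h0 i) (h0 j)

theorem sep_flip {S S' : L → Bool} {e : E} {v : L → ℂ} (h0 : ∀ j, S j ≠ S' j → e.2 j ≠ 0) :
    H95.Sep S' (H95.flip S S' e).2 (flipv S S' e.2 v) ↔ H95.Sep S e.2 v := by
  unfold H95.Sep
  refine forall_congr' fun i => forall_congr' fun j => forall_congr' fun _ =>
    forall_congr' fun _ => not_congr ?_
  exact same_flip (h0 i) (h0 j)

theorem sq_flip {S S' : L → Bool} {e : E} {v : L → ℂ} (h0 : ∀ j, S j ≠ S' j → e.2 j ≠ 0)
    (h : ∀ j, v j ^ 2 = pol (S j) e.1 (e.2 j)) (j : L) :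
    flipv S S' e.2 v j ^ 2 = pol (S' j) (H95.flip S S' e).1 ((H95.flip S S' e).2 j) := by
  simp only [flipv, H95.flip]
  by_cases hj : S j = S' j
  · simp only [hj, if_true]; rw [h j, hj]
  · simp only [hj, if_false]
    rw [pol_inv hj _ (h0 j hj), ← h j]; ring

theorem onC_flip {S S' : L → Bool} {e : E} {v : L → ℂ} (h0 : ∀ j, S j ≠ S' j → e.2 j ≠ 0)
    (h : OnC S e.1 e.2 v) : OnC S' (H95.flip S S' e).1 (H95.flip S S' e).2 (flipv S S' e.2 v) := by
  refine fun j => ⟨sq_flip h0 (fun j => (h j).1) j, ?_⟩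
  simp only [flipv]
  split_ifs with hj
  · exact (h j).2
  · exact mul_ne_zero (h j).2 (pow_ne_zero 3 (inv_ne_zero (h0 j hj)))

theorem contDiffAt_flip {S S' : L → Bool} {e : E} (h0 : ∀ j, S j ≠ S' j → e.2 j ≠ 0) :
    ContDiffAt ℝ ∞ (H95.flip S S') e := by
  unfold H95.flip
  refine contDiffAt_fst.prodMk (contDiffAt_pi.2 fun j => ?_)
  have h1 : ContDiffAt ℝ ∞ (fun p : E => p.2 j) e := by fun_prop
  by_cases hj : S j = S' j
  · simp only [hj, if_true]; exact h1
  · simp only [hj, if_false]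
    exact h1.inv (h0 j hj)

/-- The field `chg`. -/
theorem extG_chg {S S' : L → Bool} {e : E} {v : L → ℂ} {g g' : E → Alt 16 E}
    (h : OnC S e.1 e.2 v) (h0 : ∀ j, S j ≠ S' j → e.2 j ≠ 0)
    (h1 : IsLoc FS S e v g) (h2 : IsLoc FS S' (H95.flip S S' e) (flipv S S' e.2 v) g')
    {O : Set E} (hO : O ∈ 𝓝 e)
    (hF : ∀ p ∈ O, ∀ v', OnC S p.1 p.2 v' → Dist S p.2 v' → (∀ j, S j ≠ S' j → p.2 j ≠ 0) →
      FS S p v' = (FS S' (H95.flip S S' p) (flipv S S' p.2 v')).compContinuousLinearMap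
        (fderiv ℝ (H95.flip S S') p)) :
    extG FS S e v = (extG FS S' (H95.flip S S' e) (flipv S S' e.2 v)).compContinuousLinearMap
      (fderiv ℝ (H95.flip S S') e) := by
  rw [extG_eq h h1, extG_eq (onC_flip h0 h) h2]
  obtain ⟨W, r, hW, he, hr, hg, -, h3⟩ := h1
  obtain ⟨W', r', hW', he', hr', hg', -, h4⟩ := h2
  obtain ⟨ρ, hρ, hρv⟩ : ∃ ρ : ℝ, 0 < ρ ∧ ∀ j, ρ ≤ ‖v j‖ := by
    refine ⟨Finset.univ.inf' Finset.univ_nonempty fun j => ‖v j‖, ?_, fun j =>
      Finset.inf'_le _ (Finset.mem_univ j)⟩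
    rw [Finset.lt_inf'_iff]
    exact fun j _ => norm_pos_iff.2 (h j).2
  have hfl : ContinuousAt (H95.flip S S') e := (contDiffAt_flip h0).continuousAt
  have hne : ∀ᶠ p in 𝓝 e, ∀ j, S j ≠ S' j → p.2 j ≠ 0 := by
    refine eventually_all.2 fun j => ?_
    by_cases hj : S j = S' j
    · exact Eventually.of_forall fun p h => absurd hj h
    · have h5 : ContinuousAt (fun p : E => p.2 j) e := by fun_prop
      filter_upwards [h5.eventually_ne (h0 j hj)] with p hp _
      exact hp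
  -- continuity of `flipv`
  have hfv : ∃ U ∈ 𝓝 e, ∃ δ > 0, ∀ p ∈ U, ∀ v' : L → ℂ, (∀ j, ‖v' j - v j‖ < δ) →
      ∀ j, ‖flipv S S' p.2 v' j - flipv S S' e.2 v j‖ < r' := by
    have h5 : ContinuousAt (fun q : E × (L → ℂ) => flipv S S' q.1.2 q.2) (e, v) := by
      unfold flipv
      refine continuousAt_pi.2 fun j => ?_
      by_cases hj : S j = S' j
      · simp only [hj, if_true]; fun_prop
      · simp only [hj, if_false]
        have h6 : ContinuousAt (fun q : E × (L → ℂ) => q.1.2 j) (e, v) := by fun_prop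
        have h7 : ContinuousAt (fun q : E × (L → ℂ) => q.2 j) (e, v) := by fun_prop
        exact h7.mul ((h6.inv₀ (h0 j hj)).pow 3)
    have h6 := h5.eventually (Metric.ball_mem_nhds _ hr')
    rw [nhds_prod_eq, Filter.eventually_prod_iff] at h6
    obtain ⟨pa, ha, pb, hb, hab⟩ := h6
    obtain ⟨δ, hδ, hδb⟩ := Metric.eventually_nhds_iff.1 hb
    refine ⟨{p | pa p}, ha, δ, hδ, fun p hp v' hv' j => ?_⟩
    have h7 : dist v' v < δ := (dist_pi_lt_iff hδ).2 fun j => by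
      rw [dist_eq_norm]; exact hv' j
    have h8 := hab hp (hδb h7)
    have h9 := (dist_pi_lt_iff hr').1 (Metric.mem_ball.1 h8) j
    rwa [dist_eq_norm] at h9
  obtain ⟨U, hU, δ, hδ, hUδ⟩ := hfv
  have hfr : ∃ᶠ p in 𝓝 e, g p = (g' (H95.flip S S' p)).compContinuousLinearMap
      (fderiv ℝ (H95.flip S S') p) := by
    rw [Filter.frequently_iff]
    intro N hN
    have h5 := Filter.inter_mem (Filter.inter_mem hN (Filter.inter_mem hO hne))
      (Filter.inter_mem (Filter.inter_mem (hW.mem_nhds he) hU)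
        (hfl.preimage_mem_nhds (hW'.mem_nhds he')))
    obtain ⟨p, hp, v', h6, h7, h8⟩ := dense_dist h h5 (lt_min (lt_min hr hρ) hδ)
    refine ⟨p, hp.1.1, ?_⟩
    have h7a := fun j => ((h7 j).trans_le (min_le_left _ _)).trans_le (min_le_left _ _)
    have h7b := fun j => ((h7 j).trans_le (min_le_left _ _)).trans_le (min_le_right _ _)
    have h7c := fun j => (h7 j).trans_le (min_le_right _ _)
    have h9 : OnC S p.1 p.2 v' := fun j => ⟨h6 j, fun h0 => by
      have h10 := h7b j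
      rw [h0, zero_sub, norm_neg] at h10
      exact absurd h10 (not_lt.2 (hρv j))⟩
    have hz := hp.1.2.2
    have h11 := hF p hp.1.2.1 v' h9 h8 hz
    have h12 := h3 p hp.2.1.1 v' h6 h7a h8
    have h13 := h4 (H95.flip S S' p) hp.2.2 (flipv S S' p.2 v') (sq_flip hz h6)
      (hUδ p hp.2.1.2 v' h7c) ((dist_flip hz).2 h8)
    rw [← h12, h11, h13]
  have hc1 : ContinuousAt g e := (hg.continuousOn e he).continuousAt (hW.mem_nhds he)
  have hc2 : ContinuousAt (fun p => (g' (H95.flip S S' p)).compContinuousLinearMap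
      (fderiv ℝ (H95.flip S S') p)) e := by
    have h5 : ContinuousAt (fun p => g' (H95.flip S S' p)) e :=
      ContinuousAt.comp (g := g') ((hg'.continuousOn _ he').continuousAt (hW'.mem_nhds he')) hfl
    have h6 : ContinuousAt (fun p => fderiv ℝ (H95.flip S S') p) e :=
      ((contDiffAt_flip (S := S) (S' := S') h0).fderiv_right (m := 0) (by simp)).continuousAt
    have h7 : ContinuousAt (fun p => ContinuousAlternatingMap.compContinuousLinearMapCLM
        (𝕜 := ℝ) (F := ℝ) (ι := Fin 16) (fderiv ℝ (H95.flip S S') p)) e :=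
      ContinuousAlternatingMap.continuous_compContinuousLinearMapCLM.continuousAt.comp h6
    exact h7.clm_apply h5
  exact tendsto_nhds_unique_of_frequently_eq hc1 hc2 hfr

/-- **The interior half of `Ext`.** -/
structure Pre where
  /-- the value on the standard families -/
  FS : (L → Bool) → E → (L → ℂ) → Alt 16 E
  loc : ∀ S e v, e.1 ∈ K6 → OnC S e.1 e.2 v → H95.Sep S e.2 v → ∃ g, IsLoc FS S e v g
  chg : ∀ S S' e v, e.1 ∈ K6 → OnC S e.1 e.2 v → Dist S e.2 v → (∀ j, S j ≠ S' j → e.2 j ≠ 0) →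
    FS S e v = (FS S' (H95.flip S S' e) (flipv S S' e.2 v)).compContinuousLinearMap
      (fderiv ℝ (H95.flip S S') e)

end Vale.Agent.P273.H894

end
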