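import Vale.Agent.P273.H894.ExtG
import Vale.Agent.P273.H888.ExtH
import Vale.Agent.P273.H724.Dict
import Vale.Agent.P273.H183.Open

/-!
The interior half of `H95.Ext` in the form of the consumers: the fields `reg` and `chg` for `extG FS`
from two properties of the value `FS` on the standard families.
-/

noncomputable section

namespace Vale.Agent.P273.H894.Int

open Set Filter H95
open Vale.Agent.P273.H681 (C6)
open scoped Topology ContDiff

/-- Near every point of the domain of `reg` there is a smooth closed form that is equal to `FS` at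
distinct marks. -/
def IntLoc (FS : (L → Bool) → E → (L → ℂ) → Alt 16 E) : Prop :=
  ∀ (S : L → Bool) (e : E) (v : L → ℂ), e.1 ∈ H95.K6 → OnC S e.1 e.2 v → H95.Sep S e.2 v →
    ∃ (W : Set E) (g : E → Alt 16 E) (r : ℝ), IsOpen W ∧ e ∈ W ∧ 0 < r ∧ ContDiffOn ℝ ∞ g W ∧
      (∀ p ∈ W, extDeriv g p = 0) ∧
      ∀ p ∈ W, ∀ v' : L → ℂ, (∀ j, ‖v' j - v j‖ < r) → H888.Dist S p v' → FS S p v' = g p

/-- Change of charts for `FS`, at distinct marks. -/
def IntChg (FS : (L → Bool) → E → (L → ℂ) → Alt 16 E) : Prop :=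
  ∀ (S S' : L → Bool) (e : E) (v : L → ℂ), e.1 ∈ H95.K6 → H888.Dist S e v →
    (∀ j, S j ≠ S' j → e.2 j ≠ 0) →
    FS S e v = (FS S' (H95.flip S S' e) (flipv S S' e.2 v)).compContinuousLinearMap
      (fderiv ℝ (H95.flip S S') e)

variable {FS : (L → Bool) → E → (L → ℂ) → Alt 16 E}

theorem isOpen_K6 : IsOpen H95.K6 := by
  rw [H724.K6_eq]; exact H183.isOpen_K6

theorem exists_rho {S : L → Bool} {a : C6} {z v : L → ℂ} (h : OnC S a z v) :
    ∃ ρ : ℝ, 0 < ρ ∧ ∀ j, ρ ≤ ‖v j‖ := by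
  refine ⟨Finset.univ.inf' Finset.univ_nonempty fun j => ‖v j‖, ?_, fun j =>
    Finset.inf'_le _ (Finset.mem_univ j)⟩
  rw [Finset.lt_inf'_iff]
  exact fun j _ => norm_pos_iff.2 (h j).2

theorem isLoc (h1 : IntLoc FS) {S : L → Bool} {e : E} {v : L → ℂ} (hK : e.1 ∈ H95.K6)
    (h : OnC S e.1 e.2 v) (hs : H95.Sep S e.2 v) : ∃ g, IsLoc FS S e v g := by
  obtain ⟨W, g, r, hW, he, hr, hg, hc, h2⟩ := h1 S e v hK h hs
  obtain ⟨ρ, hρ, hρv⟩ := exists_rho h
  refine ⟨g, W, min r ρ, hW, he, lt_min hr hρ, hg, hc, ?_⟩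
  intro p hp v' h3 h4 h5
  refine h2 p hp v' (fun j => (h4 j).trans_le (min_le_left _ _)) ⟨fun j => ⟨h3 j, fun h0 => ?_⟩, h5⟩
  have h6 := (h4 j).trans_le (min_le_right _ _)
  rw [h0, zero_sub, norm_neg] at h6
  exact absurd h6 (not_lt.2 (hρv j))

theorem sep_of_dist {S : L → Bool} {e : E} {v : L → ℂ} (h : H888.Dist S e v) :
    H95.Sep S e.2 v := fun i j hij _ => h.2 i j hij

/-- The field `reg` of `H95.Ext`. -/
theorem extG_reg (h1 : IntLoc FS) : ∀ (S : L → Bool) (e : E) (v : L → ℂ), e.1 ∈ H95.K6 →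
    OnC S e.1 e.2 v → H95.Sep S e.2 v →
    Near id S (extG FS S) (fun g p => extDeriv g p = 0) e v := by
  intro S e v hK h hs
  obtain ⟨g, hg⟩ := isLoc h1 hK h hs
  exact extG_near h hg

/-- `extG FS` is equal to `FS` at distinct marks. -/
theorem extG_eq (h1 : IntLoc FS) {S : L → Bool} {e : E} {v : L → ℂ} (hK : e.1 ∈ H95.K6)
    (h : H888.Dist S e v) : extG FS S e v = FS S e v := by
  obtain ⟨g, hg⟩ := isLoc h1 hK h.1 (sep_of_dist h)
  exact extG_dist h.1 hg h.2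

/-- The field `chg` of `H95.Ext`. -/
theorem extG_chg (h1 : IntLoc FS) (h2 : IntChg FS) : ∀ (S S' : L → Bool) (e : E) (v : L → ℂ),
    e.1 ∈ H95.K6 → OnC S e.1 e.2 v → H95.Sep S e.2 v → (∀ j, S j ≠ S' j → e.2 j ≠ 0) →
    extG FS S e v = (extG FS S' (H95.flip S S' e) (flipv S S' e.2 v)).compContinuousLinearMap
      (fderiv ℝ (H95.flip S S') e) := by
  intro S S' e v hK h hs h0
  obtain ⟨g, hg⟩ := isLoc h1 hK h hs
  obtain ⟨g', hg'⟩ := isLoc (S := S') (e := H95.flip S S' e) (v := flipv S S' e.2 v) h1 hK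
    (onC_flip h0 h) ((sep_flip h0).2 hs)
  have hO : {p : E | p.1 ∈ H95.K6} ∈ 𝓝 e :=
    (isOpen_K6.preimage continuous_fst).mem_nhds hK
  exact H894.extG_chg h h0 hg hg' hO fun p hp v' h3 h4 h5 => h2 S S' p v' hp ⟨h3, h4⟩ h5

end Vale.Agent.P273.H894.Int

end
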