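import Vale.Agent.P273.H562.RegCore
import Vale.Agent.P273.H607.Exc

/-!
# P273, LIM step 5: the limits of the regions, annuli
-/

noncomputable section

namespace Vale.Agent.P273.H894

open Set Filter MeasureTheory H681 H95 H732 H573 H562
open scoped Topology ContDiff

section Frame

variable {R : H95.Region} {m : ∀ k, Fin (R.n k + 1)}

/-- the last vector of the frame -/
theorem fr30_update (a b b' : Co R m) :
    fr30 R m a b' = Function.update (fr30 R m a b) (⟨29, by norm_num⟩ : Fin (16 + 14)) b' := by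
  funext j
  by_cases hj : j = (⟨29, by norm_num⟩ : Fin (16 + 14))
  · subst hj
    rw [Function.update_self]
    rfl
  · rw [Function.update_of_ne hj]
    unfold fr30
    by_cases h1 : (j : ℕ) < 28
    · have e : j = Fin.castAdd (n := 28) 2 ⟨j, h1⟩ := rfl
      rw [e]
      exact (Fin.append_left (m := 28) (n := 2) (fr28 R m) ![a, b'] ⟨j, h1⟩).trans
        (Fin.append_left (m := 28) (n := 2) (fr28 R m) ![a, b] ⟨j, h1⟩).symm
    · have h2 : (j : ℕ) ≠ 29 := fun h => hj (Fin.ext h)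
      have h3 : (j : ℕ) = 28 := by have := j.isLt; omega
      have e : j = Fin.natAdd (m := 2) 28 0 := Fin.ext h3
      rw [e]
      exact (Fin.append_right (m := 28) (n := 2) (fr28 R m) ![a, b'] 0).trans
        (Fin.append_right (m := 28) (n := 2) (fr28 R m) ![a, b] 0).symm

theorem fr30_smul (w : Alt (16 + 14) (Co R m)) (a b : Co R m) (c : ℝ) :
    w (fr30 R m a (c • b)) = c * w (fr30 R m a b) := by
  have h1 := fr30_update a b (c • b)
  have h2 := fr30_update a b b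
  rw [h1, w.map_update_smul, ← h2, smul_eq_mul]

theorem continuousOn_eul (i : Fin 3) {A : Type*} [TopologicalSpace A] {p : A → Co R m} {S : Set A}
    (hp : ContinuousOn p S) (h0 : ∀ q ∈ S, 0 < (p q).2.2.1 i) :
    ContinuousOn (fun q => (W R m).eul (p q) i) S := by
  unfold H732.Reg.eul
  refine ContinuousOn.prodMk ?_ continuousOn_const
  refine continuousOn_pi.2 fun f => ?_
  by_cases hf : (W R m).nk f.1 = i
  · simp only [hf, if_true]
    refine ContinuousOn.div ?_ ?_ fun q hq => (h0 q hq).ne'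
    · exact (continuous_apply f).comp_continuousOn (continuous_fst.comp_continuousOn hp)
    · exact (continuous_apply i).comp_continuousOn
        ((continuous_fst.comp (continuous_snd.comp continuous_snd)).comp_continuousOn hp)
  · simp only [hf, if_false]
    exact continuousOn_const

theorem continuousOn_fr30 {A : Type*} [TopologicalSpace A] {a : A → Co R m} {S : Set A}
    (ha : ContinuousOn a S) (b : Co R m) :
    ContinuousOn (fun q => fr30 R m (a q) b) S := by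
  refine continuousOn_pi.2 fun j => ?_
  by_cases h1 : (j : ℕ) < 28
  · have : (fun q => fr30 R m (a q) b j) = fun _ => fr28 R m ⟨j, h1⟩ := by
      funext q
      exact Fin.append_left (m := 28) (n := 2) (fr28 R m) ![a q, b] ⟨j, h1⟩
    rw [this]
    exact continuousOn_const
  · by_cases h2 : (j : ℕ) = 28
    · have e : j = Fin.natAdd (m := 2) 28 0 := Fin.ext h2
      have : (fun q => fr30 R m (a q) b j) = a := by
        funext q
        rw [e]
        exact Fin.append_right (m := 28) (n := 2) (fr28 R m) ![a q, b] 0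
      rw [this]
      exact ha
    · have h3 : (j : ℕ) = 29 := by have := j.isLt; omega
      have e : j = Fin.natAdd (m := 2) 28 1 := Fin.ext h3
      have : (fun q => fr30 R m (a q) b j) = fun _ => b := by
        funext q
        rw [e]
        exact Fin.append_right (m := 28) (n := 2) (fr28 R m) ![a q, b] 1
      rw [this]
      exact continuousOn_const

end Frame

theorem mul_yA (i : Fin 3) (N Y : ℝ) : (fun k => N * yA i 1 Y k) = yA i N Y := by
  funext k
  unfold yA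
  split_ifs <;> ring

theorem continuous_yA (i : Fin 3) : Continuous fun q : ℝ × ℝ => yA i 1 q.1 := by
  refine continuous_pi fun k => ?_
  unfold yA
  split_ifs <;> fun_prop

theorem continuous_aA (i : Fin 3) : Continuous fun q : ℝ × ℝ => aA i q.2 := by
  refine continuous_pi fun k => ?_
  unfold aA
  split_ifs <;> fun_prop

/-- the parameters of the annuli -/
def DA : Set (ℝ × ℝ) := Ioi (1 : ℝ) ×ˢ Icc (0 : ℝ) 1

theorem measurableSet_DA : MeasurableSet DA := measurableSet_Ioi.prod measurableSet_Icc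

theorem one_le_yA (i : Fin 3) {q : ℝ × ℝ} (hq : q ∈ DA) (k : Fin 3) : 1 ≤ yA i 1 q.1 k := by
  have : 1 < q.1 := hq.1
  unfold yA
  split_ifs
  · linarith
  · exact le_rfl

theorem aA_mem (i : Fin 3) {q : ℝ × ℝ} (hq : q ∈ DA) (k : Fin 3) :
    -7 ≤ aA i q.2 k ∧ aA i q.2 k ≤ 1 := by
  have h0 : 0 ≤ q.2 := hq.2.1
  have h1 : q.2 ≤ 1 := hq.2.2
  have hpi := Real.pi_pos
  have hpi2 := Real.pi_lt_d2
  unfold aA
  split_ifs
  · constructor <;> nlinarith
  · norm_num

theorem integrableOn_CA (C : ℝ) :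
    IntegrableOn (fun q : ℝ × ℝ => 2 * Real.pi * |C| * q.1 ^ (-(3 / 2) : ℝ)) DA := by
  rw [DA, IntegrableOn, Measure.volume_eq_prod, ← Measure.prod_restrict]
  have h1 : IntegrableOn (fun t : ℝ => 2 * Real.pi * |C| * t ^ (-(3 / 2) : ℝ)) (Ioi 1) :=
    (integrableOn_Ioi_rpow_of_lt (by norm_num) zero_lt_one).const_mul _
  have h2 : IntegrableOn (fun _ : ℝ => (1 : ℝ)) (Icc 0 1) := integrableOn_const (by simp)
  have h3 := Integrable.mul_prod h1 h2
  simpa using h3

section A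

variable {R : H95.Region} {m : ∀ k, Fin (R.n k + 1)} (far : R.Cm → Bool) (i : Fin 3)

/-- the second vector -/
def vA (R : H95.Region) (m : ∀ k, Fin (R.n k + 1)) (i : Fin 3) : Co R m :=
  (-2 * Real.pi) • (W R m).vec (.al i)

theorem vA_smul (w : Alt (16 + 14) (Co R m)) (a : Co R m) :
    w (fr30 R m a (vA R m i)) = (-2 * Real.pi) * w (fr30 R m a ((W R m).vec (.al i))) :=
  fr30_smul w a _ _

/-- the integrand, for any field of forms -/
def gA (F : Co R m → Alt (16 + 14) (Co R m)) (N : ℝ) (q : BF R m) : ℝ :=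
  N * F (H573.mk R m q.1.1 q.1.2 q.2)
    (fr30 R m ((W R m).eul (H573.mk R m q.1.1 q.1.2 q.2) i) (vA R m i))

theorem gA_eq (F : Co R m → Alt (16 + 14) (Co R m)) (N : ℝ) (y α : Fin 3 → ℝ) (x : Fb R m) :
    gA i F N ((y, α), x) = N * ((-2 * Real.pi) * F (H573.mk R m y α x)
      (fr30 R m ((W R m).eul (H573.mk R m y α x) i) ((W R m).vec (.al i)))) := by
  unfold gA
  rw [vA_smul]

theorem gA_bound (F : Co R m → Alt (16 + 14) (Co R m)) {C N₁ : ℝ} (hN₁ : 1 ≤ N₁)
    (hbd : ∀ (N Y : ℝ), N₁ ≤ N → 1 ≤ Y → ∀ α : Fin 3 → ℝ, (∀ k, -7 ≤ α k ∧ α k ≤ 1) →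
      ∀ x ∈ domF R m far (yA i N Y) α,
      |F (H573.mk R m (yA i N Y) α x)
        (fr30 R m ((W R m).eul (H573.mk R m (yA i N Y) α x) i) ((W R m).vec (.al i)))| ≤
        C / (N * Y ^ (3 / 2 : ℝ)) * ∏ f : (W R m).Fr, max (Real.exp (-x.1.1 f))
          (1 / yA i N Y ((W R m).nk f.1))) (N : ℝ) (hN' : N₁ ≤ N)
    (q : ℝ × ℝ) (hq : q ∈ DA) (x : Fb R m)
    (hx : x ∈ domF R m far (fun k => N * yA i 1 q.1 k) (aA i q.2)) :
    |gA i F N ((fun k => N * yA i 1 q.1 k, aA i q.2), x)| ≤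
      2 * Real.pi * |C| * q.1 ^ (-(3 / 2) : ℝ) * ∏ f : (W R m).Fr, max (Real.exp (-x.1.1 f))
        (1 / (N * yA i 1 q.1 ((W R m).nk f.1))) := by
  have hN0 : 0 < N := zero_lt_one.trans_le (hN₁.trans hN')
  have hY : 1 < q.1 := hq.1
  have hY0 : 0 < q.1 := zero_lt_one.trans hY
  rw [mul_yA] at hx ⊢
  have h1 := hbd N q.1 hN' hY.le (aA i q.2) (aA_mem i hq) x hx
  have e : ∀ f : (W R m).Fr, N * yA i 1 q.1 ((W R m).nk f.1) = yA i N q.1 ((W R m).nk f.1) :=
    fun f => congrFun (mul_yA i N q.1) _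
  simp only [e]
  rw [gA_eq, abs_mul, abs_mul, abs_of_pos hN0, abs_mul, abs_neg, abs_two,
    abs_of_pos Real.pi_pos]
  generalize |F (H573.mk R m (yA i N q.1) (aA i q.2) x)
        (fr30 R m ((W R m).eul (H573.mk R m (yA i N q.1) (aA i q.2) x) i)
          ((W R m).vec (.al i)))| = t at h1 ⊢
  have hP0 : 0 ≤ ∏ f : (W R m).Fr, max (Real.exp (-x.1.1 f))
      (1 / yA i N q.1 ((W R m).nk f.1)) :=
    Finset.prod_nonneg fun f _ => le_max_of_le_left (Real.exp_pos _).le
  generalize ∏ f : (W R m).Fr, max (Real.exp (-x.1.1 f))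
      (1 / yA i N q.1 ((W R m).nk f.1)) = P at h1 hP0 ⊢
  have h2 : C / (N * q.1 ^ (3 / 2 : ℝ)) ≤ |C| * q.1 ^ (-(3 / 2) : ℝ) / N := by
    rw [Real.rpow_neg hY0.le]
    have h3 : 0 < q.1 ^ (3 / 2 : ℝ) := Real.rpow_pos_of_pos hY0 _
    rw [← div_eq_mul_inv, div_div, mul_comm (q.1 ^ (3 / 2 : ℝ)) N]
    exact div_le_div_of_nonneg_right (le_abs_self C) (by positivity)
  have h4 : t ≤ |C| * q.1 ^ (-(3 / 2) : ℝ) / N * P :=
    h1.trans (mul_le_mul_of_nonneg_right h2 hP0)
  have h5 : N * (2 * Real.pi * t) ≤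
      N * (2 * Real.pi * (|C| * q.1 ^ (-(3 / 2) : ℝ) / N * P)) := by
    have := Real.pi_pos
    gcongr
  refine h5.trans (le_of_eq ?_)
  field_simp

theorem gA_lim (F : Co R m → Alt (16 + 14) (Co R m)) (FL : Alt (16 + 14) (Co R m))
    (B : Finset (W R m).Fr) (y α : Fin 3 → ℝ) (x : Fb R m) {P : Prop} [Decidable P]
    (h : Tendsto (fun N : ℝ => N ^ (B.card + 1) *
      F ((W R m).dpt (↑B) N (H573.mk R m y α x))
        (fr30 R m ((W R m).eul ((W R m).dpt (↑B) N (H573.mk R m y α x)) i)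
          ((W R m).vec (.al i)))) atTop
      (𝓝 (if P then FL (fr30 R m ((W R m).vec (.y i)) ((W R m).vec (.al i))) else 0))) :
    Tendsto (fun N : ℝ => N ^ B.card * gA i F N
      ((fun k => N * y k, α), dilF R m B N x)) atTop
      (𝓝 (if P then FL (fr30 R m ((W R m).vec (.y i)) (vA R m i)) else 0)) := by
  have h1 := h.const_mul (-2 * Real.pi)
  have e : (-2 * Real.pi) * (if P then FL
      (fr30 R m ((W R m).vec (.y i)) ((W R m).vec (.al i))) else 0) =
      if P then FL (fr30 R m ((W R m).vec (.y i)) (vA R m i)) else 0 := by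
    split_ifs
    · exact (vA_smul i FL _).symm
    · rw [mul_zero]
  rw [← e]
  refine h1.congr fun N => ?_
  rw [gA_eq, mk_dilF]
  ring

theorem gA_meas (hM1 : MeasDom) {N₂ : ℝ} (F : Co R m → Alt (16 + 14) (Co R m))
    (hcont : ContinuousOn (fun q : BF R m => F (H573.mk R m q.1.1 q.1.2 q.2))
      {q | (∀ k, N₂ ≤ q.1.1 k) ∧ (∀ k, -7 ≤ q.1.2 k ∧ q.1.2 k ≤ 1) ∧
        q.2 ∈ domF R m far q.1.1 q.1.2}) (N : ℝ) (hN0 : 1 ≤ N) (hN2 : N₂ ≤ N) :
    AEStronglyMeasurable (fun p : (ℝ × ℝ) × Fb R m =>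
      gA i F N ((fun k => N * yA i 1 p.1.1 k, aA i p.1.2), p.2))
      (volume.restrict {p | p.1 ∈ DA ∧
        p.2 ∈ domF R m far (fun k => N * yA i 1 p.1.1 k) (aA i p.1.2)}) := by
  have h1 : Continuous fun p : (ℝ × ℝ) × Fb R m =>
      (((fun k => N * yA i 1 p.1.1 k, aA i p.1.2), p.2) : BF R m) := by
    refine Continuous.prodMk (Continuous.prodMk ?_ ((continuous_aA i).comp continuous_fst))
      continuous_snd
    exact continuous_pi fun k =>
      continuous_const.mul ((continuous_apply k).comp ((continuous_yA i).comp continuous_fst))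
  have hAm : MeasurableSet {p : (ℝ × ℝ) × Fb R m |
      p.1 ∈ DA ∧ p.2 ∈ domF R m far (fun k => N * yA i 1 p.1.1 k) (aA i p.1.2)} := by
    refine (measurableSet_DA.preimage measurable_fst).inter ?_
    exact (hM1 R m far).preimage h1.measurable
  refine ContinuousOn.aestronglyMeasurable ?_ hAm
  refine ContinuousOn.mul continuousOn_const ?_
  have h2 := hcont.comp h1.continuousOn (s := {p : (ℝ × ℝ) × Fb R m |
      p.1 ∈ DA ∧ p.2 ∈ domF R m far (fun k => N * yA i 1 p.1.1 k) (aA i p.1.2)})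
    fun p hp => ⟨fun k => by
      have h3 := one_le_yA i hp.1 k
      simp only
      nlinarith, aA_mem i hp.1, hp.2⟩
  have h3 : Continuous fun p : (ℝ × ℝ) × Fb R m =>
      H573.mk R m (fun k => N * yA i 1 p.1.1 k) (aA i p.1.2) p.2 :=
    (H607.continuous_mk R m).comp h1
  have h4 := continuousOn_fr30 (continuousOn_eul (R := R) (m := m) i (h3.continuousOn
    (s := {p : (ℝ × ℝ) × Fb R m |
      p.1 ∈ DA ∧ p.2 ∈ domF R m far (fun k => N * yA i 1 p.1.1 k) (aA i p.1.2)}))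
    fun p hp => by
      have h5 := one_le_yA i hp.1 i
      show 0 < N * yA i 1 p.1.1 i
      positivity) (vA R m i)
  exact h2.eval h4

/-- the limit for any field of forms -/
theorem lim_gen (hM1 : MeasDom) (hN1 : MeasExc) (hN2 : NullExc) (hN3 : GenExc) (hDL : DomLim)
    (F : Co R m → Alt (16 + 14) (Co R m)) (FL : Finset (W R m).Fr → Co R m → Alt (16 + 14) (Co R m))
    {C N₁ N₂ : ℝ} (hN₁ : 1 ≤ N₁)
    (hcont : ContinuousOn (fun q : BF R m => F (H573.mk R m q.1.1 q.1.2 q.2))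
      {q | (∀ k, N₂ ≤ q.1.1 k) ∧ (∀ k, -7 ≤ q.1.2 k ∧ q.1.2 k ≤ 1) ∧
        q.2 ∈ domF R m far q.1.1 q.1.2})
    (hbd : ∀ (N Y : ℝ), N₁ ≤ N → 1 ≤ Y → ∀ α : Fin 3 → ℝ, (∀ k, -7 ≤ α k ∧ α k ≤ 1) →
      ∀ x ∈ domF R m far (yA i N Y) α,
      |F (H573.mk R m (yA i N Y) α x)
        (fr30 R m ((W R m).eul (H573.mk R m (yA i N Y) α x) i) ((W R m).vec (.al i)))| ≤
        C / (N * Y ^ (3 / 2 : ℝ)) * ∏ f : (W R m).Fr, max (Real.exp (-x.1.1 f))
          (1 / yA i N Y ((W R m).nk f.1)))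
    (hlim : ∀ (B : Finset (W R m).Fr) (p : Co R m), GenS R m (Sx R far) B p →
      Tendsto (fun N : ℝ => N ^ (B.card + 1) * F ((W R m).dpt (↑B) N p)
        (fr30 R m ((W R m).eul ((W R m).dpt (↑B) N p) i) ((W R m).vec (.al i)))) atTop
      (𝓝 (if B.card = 6 then FL B p
        (fr30 R m ((W R m).vec (.y i)) ((W R m).vec (.al i))) else 0))) :
    Tendsto (fun N : ℝ => ∫ q in Ioi (1 : ℝ) ×ˢ Icc (0 : ℝ) 1,
        N * ∫ x in domF R m far (yA i N q.1) (aA i q.2),
          F (H573.mk R m (yA i N q.1) (aA i q.2) x)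
            (fr30 R m ((W R m).eul (H573.mk R m (yA i N q.1) (aA i q.2) x) i)
              ((-2 * Real.pi) • (W R m).vec (.al i)))) atTop
      (𝓝 (∑ B ∈ (Finset.univ : Finset (Finset (W R m).Fr)).filter (fun B => B.card = 6),
        ∫ q in Ioi (1 : ℝ) ×ˢ Icc (0 : ℝ) 1, ∫ x in domL R m far B (yA i 1 q.1),
          FL B (H573.mk R m (yA i 1 q.1) (aA i q.2) x)
            (fr30 R m ((W R m).vec (.y i)) ((-2 * Real.pi) • (W R m).vec (.al i))))) := by
  have key := core_limit (Q := ℝ × ℝ) hM1 hN1 hN2 hN3 hDL far (D := DA) measurableSet_DA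
    (yq := fun q => yA i 1 q.1) (αq := fun q => aA i q.2) (continuous_yA i).measurable
    (continuous_aA i).measurable (fun q hq => one_le_yA i hq) (fun q hq => aA_mem i hq)
    (g := gA i F) (N₀ := max N₁ N₂) (hN₁.trans (le_max_left _ _))
    (fun N hN => gA_meas far i hM1 F hcont N
      (hN₁.trans ((le_max_left _ _).trans hN)) ((le_max_right _ _).trans hN))
    (C := fun q => 2 * Real.pi * |C| * q.1 ^ (-(3 / 2) : ℝ)) (fun q hq => by
      have : 0 < q.1 := zero_lt_one.trans hq.1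
      positivity) (integrableOn_CA C)
    (fun N hN q hq x hx => gA_bound far i F hN₁ hbd N ((le_max_left _ _).trans hN) q hq x hx)
    (gl := fun B p => FL B p (fr30 R m ((W R m).vec (.y i)) (vA R m i)))
    (fun q hq B x hG => gA_lim i F (FL B (H573.mk R m (yA i 1 q.1) (aA i q.2) x)) B (yA i 1 q.1)
      (aA i q.2) x (hlim B _ hG))
  refine key.congr fun N => ?_
  refine setIntegral_congr_fun measurableSet_DA fun q _ => ?_
  simp only [mul_yA]
  exact integral_const_mul N _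

/-- `IR` for any field of forms -/
def IRF (F : Co R m → Alt (16 + 14) (Co R m)) (y α : Fin 3 → ℝ) (a b : Co R m → Co R m) : ℝ :=
  ∫ x in domF R m far y α, F (H573.mk R m y α x)
    (fr30 R m (a (H573.mk R m y α x)) (b (H573.mk R m y α x)))

/-- `annR` for any field of forms and any two vector fields -/
def annF (F : Co R m → Alt (16 + 14) (Co R m)) (a b : Co R m → Co R m) (N : ℝ) : ℝ :=
  ∫ q in Ioi (1 : ℝ) ×ˢ Icc (0 : ℝ) 1, N * IRF far F (yA i N q.1) (aA i q.2) a b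

/-- `annL` for any field of forms and any two vectors -/
def annLF (FL : Finset (W R m).Fr → Co R m → Alt (16 + 14) (Co R m)) (c d : Co R m)
    (B : Finset (W R m).Fr) : ℝ :=
  ∫ q in Ioi (1 : ℝ) ×ˢ Icc (0 : ℝ) 1, ∫ x in domL R m far B (yA i 1 q.1),
    FL B (H573.mk R m (yA i 1 q.1) (aA i q.2) x) (fr30 R m c d)

theorem lim_gen' (hM1 : MeasDom) (hN1 : MeasExc) (hN2 : NullExc) (hN3 : GenExc) (hDL : DomLim)
    (F : Co R m → Alt (16 + 14) (Co R m)) (FL : Finset (W R m).Fr → Co R m → Alt (16 + 14) (Co R m))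
    {C N₁ N₂ : ℝ} (hN₁ : 1 ≤ N₁)
    (hcont : ContinuousOn (fun q : BF R m => F (H573.mk R m q.1.1 q.1.2 q.2))
      {q | (∀ k, N₂ ≤ q.1.1 k) ∧ (∀ k, -7 ≤ q.1.2 k ∧ q.1.2 k ≤ 1) ∧
        q.2 ∈ domF R m far q.1.1 q.1.2})
    (hbd : ∀ (N Y : ℝ), N₁ ≤ N → 1 ≤ Y → ∀ α : Fin 3 → ℝ, (∀ k, -7 ≤ α k ∧ α k ≤ 1) →
      ∀ x ∈ domF R m far (yA i N Y) α,
      |F (H573.mk R m (yA i N Y) α x)
        (fr30 R m ((W R m).eul (H573.mk R m (yA i N Y) α x) i) ((W R m).vec (.al i)))| ≤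
        C / (N * Y ^ (3 / 2 : ℝ)) * ∏ f : (W R m).Fr, max (Real.exp (-x.1.1 f))
          (1 / yA i N Y ((W R m).nk f.1)))
    (hlim : ∀ (B : Finset (W R m).Fr) (p : Co R m), GenS R m (Sx R far) B p →
      Tendsto (fun N : ℝ => N ^ (B.card + 1) * F ((W R m).dpt (↑B) N p)
        (fr30 R m ((W R m).eul ((W R m).dpt (↑B) N p) i) ((W R m).vec (.al i)))) atTop
      (𝓝 (if B.card = 6 then FL B p
        (fr30 R m ((W R m).vec (.y i)) ((W R m).vec (.al i))) else 0)))
    (a b : Co R m → Co R m) (ha : a = fun p => (W R m).eul p i)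
    (hb : b = fun _ => (-2 * Real.pi) • (W R m).vec (.al i)) (c d : Co R m)
    (hc : c = (W R m).vec (.y i)) (hd : d = (-2 * Real.pi) • (W R m).vec (.al i)) :
    Tendsto (annF far i F a b) atTop
      (𝓝 (∑ B ∈ (Finset.univ : Finset (Finset (W R m).Fr)).filter (fun B => B.card = 6),
        annLF far i FL c d B)) := by
  subst ha hb hc hd
  exact lim_gen far i hM1 hN1 hN2 hN3 hDL F FL hN₁ hcont hbd hlim

end A

section Fin

variable (R : H95.Region) (m : ∀ k, Fin (R.n k + 1)) (X : Ext) (Θ : Gauge) (T : MT)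
  (far : R.Cm → Bool) (i : Fin 3)

theorem IR_eq (y α : Fin 3 → ℝ) (a b : Co R m → Co R m) :
    IR R m X Θ T far y α a b = IRF far (OmR R m X Θ T (Sx R far)) y α a b := rfl

theorem annR_eq0 : ∃ a b : Co R m → Co R m, (a = fun p => (W R m).eul p i) ∧
    (b = fun _ => (-2 * Real.pi) • (W R m).vec (.al i)) ∧
    annR R m X Θ T far i = fun N => ∫ q in Ioi (1 : ℝ) ×ˢ Icc (0 : ℝ) 1,
      N * IR R m X Θ T far (yA i N q.1) (aA i q.2) a b := by
  refine ⟨_, _, ?_, ?_, (rfl : annR R m X Θ T far i = fun N =>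
    ∫ q in Ioi (1 : ℝ) ×ˢ Icc (0 : ℝ) 1, N * IR R m X Θ T far (yA i N q.1) (aA i q.2) _ _)⟩
  · rfl
  · rfl

theorem annR_eq : ∃ a b : Co R m → Co R m, (a = fun p => (W R m).eul p i) ∧
    (b = fun _ => (-2 * Real.pi) • (W R m).vec (.al i)) ∧
    annR R m X Θ T far i = annF far i (OmR R m X Θ T (Sx R far)) a b := by
  obtain ⟨a, b, ha, hb, h⟩ := annR_eq0 R m X Θ T far i
  refine ⟨a, b, ha, hb, ?_⟩
  rw [h]
  funext N
  simp only [IR_eq]
  rfl

theorem annL_eq : ∃ c d : Co R m, c = (W R m).vec (.y i) ∧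
    d = (-2 * Real.pi) • (W R m).vec (.al i) ∧
    ∀ B, annL R m X T far B i = annLF far i (OmL R m X T 7 (Sx R far)) c d B := by
  refine ⟨_, _, ?_, ?_, (fun B => (rfl : annL R m X T far B i =
    annLF far i (OmL R m X T 7 (Sx R far)) _ _ B))⟩
  · rfl
  · rfl

end Fin

/-- **(S5b)** the limits of the regions, annuli. -/
theorem limRegA {X : Ext} {Θ : Gauge} (hM1 : MeasDom) (hM2 : ContOm X Θ) (hN1 : MeasExc)
    (hN2 : NullExc) (hN3 : GenExc) (hDL : DomLim) (hB : BdA X Θ) (hP : PtA X Θ) :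
    LimRegA X Θ := by
  intro i T hT hW hs R m far
  obtain ⟨C, N₁, hN₁, hbd⟩ := hB i T hT hW hs
  obtain ⟨N₂, hcont⟩ := hM2
  obtain ⟨a, b, ha, hb, e1⟩ := annR_eq R m X Θ T far i
  obtain ⟨c, d, hc, hd, e2⟩ := annL_eq R m X T far i
  have h := lim_gen' far i hM1 hN1 hN2 hN3 hDL (OmR R m X Θ T (Sx R far))
    (OmL R m X T 7 (Sx R far)) hN₁ (hcont T hT R m far) (hbd R m far)
    (fun B p hG => hP T hT hW R m far B p hG i) a b ha hb c d hc hd
  rw [e1, Finset.sum_congr rfl fun B _ => e2 B]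
  exact h

end Vale.Agent.P273.H894

end
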